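import Vale.Agent.P143.H985.Main

/-! The network theorem as one named proposition. (helper985) -/

namespace Vale.Agent.P143.Net

open Vale.Agent.P143 MeasureTheory SimpleGraph unitInterval

universe u

/-- The free uniform spanning forest of networks is a factor of IID: invariant conductances on
Cayley graphs; unimodular random networks; one universal isomorphism-invariant Borel rule for all
networks; all networks on a fixed graph, jointly measurable in the conductances and equivariant
under all automorphisms. Unit conductances give the free uniform spanning forest of the problem. -/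
def Networks : Prop :=
  (∀ (Γ : Type u) [Group Γ] (S : Set Γ), S.Finite → Subgroup.closure S = ⊤ →
      ∀ c : Sym2 Γ → ℝ, Positive (mulCayley S) c →
        (∀ γ : Γ, ∀ f ∈ (mulCayley S).edgeSet, c (f.map (γ * ·)) = c f) →
        ∃ μ : Measure ((mulCayley S).edgeSet → Bool),
          IsNetFUSF (mulCayley S) c μ ∧ IsGroupFactor S μ) ∧
    (∀ ρ : Measure (SimpleGraph ℕ × (Sym2 ℕ → ℝ) × ℕ), IsUnimodularNetwork ρ →
      ∃ Φ : SimpleGraph ℕ → (Sym2 ℕ → ℝ) → (ℕ → I) → Sym2 ℕ → Bool, IsNetworkRule Φ ∧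
        ∀ᵐ p ∂ρ, IsNetFUSF p.1 p.2.1 (netLaw Φ p.1 p.2.1)) ∧
    (∃ Φ : SimpleGraph ℕ → (Sym2 ℕ → ℝ) → (ℕ → I) → Sym2 ℕ → Bool, IsNetworkRule Φ ∧
      ∀ (G : SimpleGraph ℕ) (c : Sym2 ℕ → ℝ), G.Connected → (∀ v, (G.neighborSet v).Finite) →
        Positive G c → IsNetFUSF G c (netLaw Φ G c)) ∧
    (∀ (V : Type u) (G : SimpleGraph V), G.Connected → (∀ v, (G.neighborSet v).Finite) →
      ∃ Ψ : (Sym2 V → ℝ) → (V → I) → G.edgeSet → Bool, IsNetFactor G Ψ) ∧
    (∀ (V : Type u) (G : SimpleGraph V) (μ : Measure (G.edgeSet → Bool)),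
      IsNetFUSF G (fun _ => 1) μ ↔ IsFUSF G μ)

theorem networks : Networks.{u} :=
  ⟨fun _ _ S hS hcl c hc hinv => cayley_network S hS hcl c hc hinv,
    fun ρ hρ => unimodular_network ρ hρ, network_rule,
    fun _ G hG hlf => exists_isNetFactor G hG hlf, fun _ G μ => isNetFUSF_one G μ⟩

end Vale.Agent.P143.Net
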