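import Vale.Agent.P143.Statement

/-!
# P143, networks: definitions used in the final statement

A network is a graph `G` together with conductances `c : Sym2 V → ℝ` that are positive on the
edges of `G` (no upper or lower bounds); the values of `c` off the edges of `G` play no role.
-/

namespace Vale.Agent.P143.Net

open MeasureTheory ProbabilityTheory Filter Topology SimpleGraph unitInterval
open scoped ENNReal

variable {V : Type*}

/-- The conductances are positive on the edges of `G`. -/
def Positive (G : SimpleGraph V) (c : Sym2 V → ℝ) : Prop := ∀ e ∈ G.edgeSet, 0 < c e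

/-- The weight of the edge set `{e | ω e = 1}`: the product of the conductances of its edges. -/
noncomputable def weight {G : SimpleGraph V} (c : Sym2 V → ℝ) (ω : G.edgeSet → Bool) : ℝ :=
  ∏ᶠ e : G.edgeSet, if ω e = true then c e else 1

/-- The law of a random point of `s`, the probability of `ω ∈ s` being proportional
to `w ω`. -/
noncomputable def randomPoint {Ω : Type*} [MeasurableSpace Ω] (s : Set Ω) (w : Ω → ℝ) :
    Measure Ω :=
  (∑' ω : s, ENNReal.ofReal (w ω))⁻¹ •
    Measure.sum fun ω : s => ENNReal.ofReal (w ω) • Measure.dirac (ω : Ω)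

/-- Law of the random spanning tree of the network `(H, c)`: the probability of a spanning
tree `T` of `H` is proportional to `∏ e ∈ T, c e`. -/
noncomputable def wust {G : SimpleGraph V} (c : Sym2 V → ℝ) (H : G.Subgraph) :
    Measure (G.edgeSet → Bool) :=
  randomPoint (spanningTrees H) (weight c)

/-- `μ` is the law of the free uniform spanning forest of the network `(G, c)`: the weak limit
on `{0,1}^E(G)` of the weighted uniform spanning trees along every exhaustion (and exhaustions
exist). -/
def IsNetFUSF (G : SimpleGraph V) (c : Sym2 V → ℝ) (μ : Measure (G.edgeSet → Bool)) : Prop :=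
  IsProbabilityMeasure μ ∧ (∃ H : ℕ → G.Subgraph, IsExhaustion H) ∧
    ∀ H : ℕ → G.Subgraph, IsExhaustion H → ∀ f : C(G.edgeSet → Bool, ℝ),
      Tendsto (fun n => ∫ ω, f ω ∂(wust c (H n))) atTop (𝓝 (∫ ω, f ω ∂μ))

/-- `Ψ` is a measurable function of the conductances of a fixed graph `G` (it depends only on
the conductances of the edges of `G`) and of vertex labels, equivariant under all automorphisms
of `G` (acting on conductances and labels at the same time), such that for all positive
conductances `c` and i.i.d. uniform labels `U` the law of `Ψ c U` is the law of the free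
uniform spanning forest of `(G, c)`. -/
structure IsNetFactor (G : SimpleGraph V)
    (Ψ : (Sym2 V → ℝ) → (V → I) → G.edgeSet → Bool) : Prop where
  measurable : Measurable fun p : (Sym2 V → ℝ) × (V → I) => Ψ p.1 p.2
  network : ∀ (c c' : Sym2 V → ℝ) (U : V → I), (∀ f ∈ G.edgeSet, c f = c' f) → Ψ c U = Ψ c' U
  equivariant : ∀ (φ : G ≃g G) (c : Sym2 V → ℝ) (U : V → I) (e : G.edgeSet),
    Ψ (fun f => c (f.map φ)) (fun v => U (φ v)) e = Ψ c U (φ.mapEdgeSet e)
  law : ∀ c, Positive G c → IsNetFUSF G c ((iidLabels V).map (Ψ c))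

/-- A Borel function of a network, vertex labels and an edge, which depends only on the
isomorphism class of the labelled network with a distinguished edge. The vertex set of the
(infinite, countable) graph is `ℕ`. -/
structure IsNetworkRule
    (Φ : SimpleGraph ℕ → (Sym2 ℕ → ℝ) → (ℕ → I) → Sym2 ℕ → Bool) : Prop where
  measurable : ∀ e, Measurable fun p : SimpleGraph ℕ × (Sym2 ℕ → ℝ) × (ℕ → I) =>
    Φ p.1 p.2.1 p.2.2 e
  network : ∀ (G : SimpleGraph ℕ) (c c' : Sym2 ℕ → ℝ) (U : ℕ → I) (e : Sym2 ℕ),
    (∀ f ∈ G.edgeSet, c f = c' f) → Φ G c U e = Φ G c' U e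
  invariant : ∀ (τ : ℕ ≃ ℕ) (G : SimpleGraph ℕ) (c : Sym2 ℕ → ℝ) (U : ℕ → I) (e : Sym2 ℕ),
    Φ (G.map τ.toEmbedding) (fun f => c (f.map τ.symm)) (U ∘ τ.symm) (e.map τ) = Φ G c U e

/-- The law of the random edge set `{e : Φ(G,c,U,e)=1}`, for i.i.d. uniform labels `U`. -/
noncomputable def netLaw (Φ : SimpleGraph ℕ → (Sym2 ℕ → ℝ) → (ℕ → I) → Sym2 ℕ → Bool)
    (G : SimpleGraph ℕ) (c : Sym2 ℕ → ℝ) : Measure (G.edgeSet → Bool) :=
  (iidLabels ℕ).map fun U (e : G.edgeSet) => Φ G c U e

/-- Law of a unimodular random rooted network (infinite, connected, locally finite, positive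
conductances), realized on the vertex set `ℕ`: the mass transport principle holds for all
Borel functions of the isomorphism class of a network with two distinguished vertices. -/
structure IsUnimodularNetwork (ρ : Measure (SimpleGraph ℕ × (Sym2 ℕ → ℝ) × ℕ)) : Prop where
  prob : IsProbabilityMeasure ρ
  graph : ∀ᵐ p ∂ρ, p.1.Connected ∧ (∀ v, (p.1.neighborSet v).Finite) ∧ Positive p.1 p.2.1
  mtp : ∀ f : SimpleGraph ℕ × (Sym2 ℕ → ℝ) × ℕ × ℕ → ℝ≥0∞, Measurable f →
    (∀ (G : SimpleGraph ℕ) (c c' : Sym2 ℕ → ℝ) (x y : ℕ), (∀ e ∈ G.edgeSet, c e = c' e) →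
      f (G, c, x, y) = f (G, c', x, y)) →
    (∀ (τ : ℕ ≃ ℕ) (G : SimpleGraph ℕ) (c : Sym2 ℕ → ℝ) (x y : ℕ),
      f (G.map τ.toEmbedding, fun e => c (e.map τ.symm), τ x, τ y) = f (G, c, x, y)) →
    ∫⁻ p, ∑' v, f (p.1, p.2.1, p.2.2, v) ∂ρ = ∫⁻ p, ∑' v, f (p.1, p.2.1, v, p.2.2) ∂ρ

end Vale.Agent.P143.Net
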