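import Vale.Agent.P143.H985.Lim
import Vale.Agent.P143.H985.Defs

/-!
# P143, networks: the factor map
-/

set_option linter.all false

namespace Vale.Agent.P143.Net

open SimpleGraph Filter Topology MeasureTheory unitInterval
open W (wd isDrift_wd)

variable {V V' : Type*}

open Classical in
/-- the conductances, made positive everywhere -/
noncomputable def cE (G : SimpleGraph V) (c : Sym2 V → ℝ) (e : Sym2 V) : ℝ :=
  if e ∈ G.edgeSet ∧ 0 < c e then c e else 1

theorem cE_pos (G : SimpleGraph V) (c : Sym2 V → ℝ) (e : Sym2 V) : 0 < cE G c e := by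
  unfold cE
  split_ifs with h
  · exact h.2
  · exact one_pos

theorem cE_of_mem {G : SimpleGraph V} {c : Sym2 V → ℝ} (hc : Positive G c) {e : Sym2 V}
    (he : e ∈ G.edgeSet) : cE G c e = c e := if_pos ⟨he, hc e he⟩

theorem cE_congr {G : SimpleGraph V} {c c' : Sym2 V → ℝ} (h : ∀ f ∈ G.edgeSet, c f = c' f) :
    cE G c = cE G c' := by
  funext e
  unfold cE
  by_cases he : e ∈ G.edgeSet ∧ 0 < c e
  · rw [if_pos he, if_pos ⟨he.1, by rw [← h e he.1]; exact he.2⟩, h e he.1]
  · rw [if_neg he, if_neg]
    rintro ⟨h1, h2⟩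
    exact he ⟨h1, by rw [h e h1]; exact h2⟩

theorem cE_map (τ : V ≃ V') (G : SimpleGraph V) (c : Sym2 V → ℝ) (e : Sym2 V) :
    cE (G.map τ.toEmbedding) (fun f => c (f.map τ.symm)) (symE τ e) = cE G c e := by
  have h1 : symE τ e ∈ (G.map τ.toEmbedding).edgeSet ↔ e ∈ G.edgeSet := by
    rw [edgeSet_map]
    exact (symE τ).injective.mem_set_image (s := G.edgeSet)
  have h2 : (fun f : Sym2 V' => c (f.map τ.symm)) (symE τ e) = c e := by
    show c ((symE τ e).map τ.symm) = c e
    rw [symE_apply, Sym2.map_map]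
    simp
  unfold cE
  by_cases he : e ∈ G.edgeSet ∧ 0 < c e
  · rw [if_pos he, if_pos ⟨h1.2 he.1, by rw [h2]; exact he.2⟩, h2]
  · rw [if_neg he, if_neg]
    rintro ⟨h3, h4⟩
    rw [h2] at h4
    exact he ⟨h1.1 h3, h4⟩

/-- the drift of the network -/
noncomputable def nd (G : SimpleGraph V) (c : Sym2 V → ℝ) : (Sym2 V → ℝ) → Sym2 V → ℝ :=
  wd (cE G c) (gdrift G)

theorem isDrift_nd (G : SimpleGraph V) (c : Sym2 V → ℝ) : IsDrift (nd G c) :=
  isDrift_wd (cE_pos G c) (isDrift_gdrift G)

open Classical in
/-- the factor map -/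
noncomputable def nfactor (G : SimpleGraph V) (c : Sym2 V → ℝ) (U : V → I) (e : Sym2 V) : Bool :=
  decide (e ∈ limitSet (nd G c) (edgeNoise G U))

theorem nfactor_eq_true (G : SimpleGraph V) (c : Sym2 V → ℝ) (U : V → I) (e : Sym2 V) :
    nfactor G c U e = true ↔ e ∈ limitSet (nd G c) (edgeNoise G U) := by
  simp [nfactor]

theorem nfactor_congr {G : SimpleGraph V} {c c' : Sym2 V → ℝ} (h : ∀ f ∈ G.edgeSet, c f = c' f)
    (U : V → I) (e : Sym2 V) : nfactor G c U e = nfactor G c' U e := by
  rw [nfactor, nfactor, nd, nd, cE_congr h]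

theorem measurable_cE [Countable V] (e : Sym2 V) :
    Measurable fun p : SimpleGraph V × (Sym2 V → ℝ) => cE p.1 p.2 e := by
  classical
  have h1 : MeasurableSet {p : SimpleGraph V × (Sym2 V → ℝ) | e ∈ p.1.edgeSet} :=
    ((measurable_set_mem e).comp (measurable_edgeSet.comp measurable_fst)).setOf
  have h2 : Measurable fun p : SimpleGraph V × (Sym2 V → ℝ) => p.2 e :=
    (measurable_pi_apply e).comp measurable_snd
  have h3 : MeasurableSet {p : SimpleGraph V × (Sym2 V → ℝ) | 0 < p.2 e} :=
    measurableSet_lt measurable_const h2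
  exact Measurable.ite (h1.inter h3) h2 measurable_const

theorem measurable_nd [Countable V] (e : Sym2 V) :
    Measurable fun p : (SimpleGraph V × (Sym2 V → ℝ)) × (Sym2 V → ℝ) =>
      nd p.1.1 p.1.2 p.2 e := by
  have h1 : Measurable fun p : (SimpleGraph V × (Sym2 V → ℝ)) × (Sym2 V → ℝ) =>
      (p.1.1, fun f => cE p.1.1 p.1.2 f * p.2 f) := by
    refine Measurable.prodMk (measurable_fst.comp measurable_fst) (measurable_pi_iff.2 fun f => ?_)
    exact ((measurable_cE f).comp measurable_fst).mul ((measurable_pi_apply f).comp measurable_snd)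
  exact (measurable_gdrift e).comp h1

theorem measurable_nfactor [Countable V] (e : Sym2 V) :
    Measurable fun p : SimpleGraph V × (Sym2 V → ℝ) × (V → I) =>
      nfactor p.1 p.2.1 p.2.2 e := by
  classical
  have : Countable (Sym2 V) := Quotient.countable
  have h1 : ∀ N : ℕ, Measurable fun p : SimpleGraph V × (Sym2 V → ℝ) × (V → I) =>
      flow (nd p.1 p.2.1) N (edgeNoise p.1 p.2.2) e := by
    intro N
    have h2 : Measurable fun p : (SimpleGraph V × (Sym2 V → ℝ)) × (Sym2 V → ℝ) =>
        flow (nd p.1.1 p.1.2) N p.2 e :=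
      measurable_flow (Θ := SimpleGraph V × (Sym2 V → ℝ)) (E := Sym2 V) (fun θ => nd θ.1 θ.2)
        (fun θ => isDrift_nd θ.1 θ.2) measurable_nd N e
    have h3 : Measurable fun p : SimpleGraph V × (Sym2 V → ℝ) × (V → I) =>
        ((p.1, p.2.1), edgeNoise p.1 p.2.2) := by
      refine Measurable.prodMk (measurable_fst.prodMk (measurable_fst.comp measurable_snd)) ?_
      refine measurable_pi_iff.2 fun f => ?_
      have h4 : Measurable fun p : SimpleGraph V × (Sym2 V → ℝ) × (V → I) => (p.1, p.2.2) :=
        measurable_fst.prodMk (measurable_snd.comp measurable_snd)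
      exact (measurable_edgeNoise f).comp h4
    have h4 := h2.comp h3
    simp only [Function.comp_def] at h4
    exact h4
  have h2 : MeasurableSet {p : SimpleGraph V × (Sym2 V → ℝ) × (V → I) |
      e ∈ limitSet (nd p.1 p.2.1) (edgeNoise p.1 p.2.2)} := by
    have : {p : SimpleGraph V × (Sym2 V → ℝ) × (V → I) |
        e ∈ limitSet (nd p.1 p.2.1) (edgeNoise p.1 p.2.2)} =
        ⋃ n : ℕ, ⋂ N : ℕ, ⋂ _ : n ≤ N, {p | (N : ℝ) / 2 ≤
          flow (nd p.1 p.2.1) N (edgeNoise p.1 p.2.2) e} := by
      ext p
      simp only [limitSet, eventually_atTop, Set.mem_ofPred_eq, Set.mem_iUnion, Set.mem_iInter]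
    rw [this]
    refine MeasurableSet.iUnion fun n => MeasurableSet.iInter fun N => MeasurableSet.iInter
      fun _ => measurableSet_le measurable_const (h1 N)
  refine measurable_to_bool ?_
  convert h2 using 1
  ext p
  simp only [nfactor, Set.mem_preimage, Set.mem_singleton_iff, decide_eq_true_eq,
    Set.mem_ofPred_eq]

theorem measurable_nfactor_graph [Countable V] (G : SimpleGraph V) :
    Measurable fun (p : (Sym2 V → ℝ) × (V → I)) (e : G.edgeSet) => nfactor G p.1 p.2 e := by
  refine measurable_pi_iff.2 fun e => ?_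
  have h1 : Measurable fun p : (Sym2 V → ℝ) × (V → I) => (G, p.1, p.2) :=
    measurable_const.prodMk (measurable_fst.prodMk measurable_snd)
  have h2 := (measurable_nfactor (e : Sym2 V)).comp h1
  simp only [Function.comp_def] at h2
  exact h2

theorem measurable_nfactor_fixed [Countable V] (G : SimpleGraph V) (c : Sym2 V → ℝ) :
    Measurable fun (U : V → I) (e : G.edgeSet) => nfactor G c U e := by
  refine measurable_pi_iff.2 fun e => ?_
  have h1 : Measurable fun U : V → I => (G, c, U) :=
    measurable_const.prodMk (measurable_const.prodMk measurable_id)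
  have h2 := (measurable_nfactor (e : Sym2 V)).comp h1
  simp only [Function.comp_def] at h2
  exact h2

theorem measurable_nd_fixed [Countable V] (G : SimpleGraph V) (c : Sym2 V → ℝ) (e : Sym2 V) :
    Measurable fun w : Sym2 V → ℝ => nd G c w e := by
  have h1 : Measurable fun w : Sym2 V → ℝ => ((G, c), w) := measurable_const.prodMk measurable_id
  have h2 := (measurable_nd e).comp h1
  simp only [Function.comp_def] at h2
  exact h2

theorem nfactor_map (τ : V ≃ V') (G : SimpleGraph V) (c : Sym2 V → ℝ) (U : V → I) (e : Sym2 V) :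
    nfactor (G.map τ.toEmbedding) (fun f => c (f.map τ.symm)) (U ∘ τ.symm) (e.map τ) =
      nfactor G c U e := by
  classical
  rw [Bool.eq_iff_iff, nfactor_eq_true, nfactor_eq_true]
  unfold limitSet
  simp only [Set.mem_ofPred_eq]
  have h : ∀ N, flow (nd (G.map τ.toEmbedding) fun f => c (f.map τ.symm)) N
      (edgeNoise (G.map τ.toEmbedding) (U ∘ τ.symm)) (e.map τ) =
      flow (nd G c) N (edgeNoise G U) e := by
    intro N
    have h1 := flow_comap (symE τ) (nd (G.map τ.toEmbedding) fun f => c (f.map τ.symm)) (nd G c)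
      (fun w _ x => by
        have h2 := drift_map_graph τ G
          (fun f => cE (G.map τ.toEmbedding) (fun f => c (f.map τ.symm)) f * w f) x
        have h3 : (fun f => cE (G.map τ.toEmbedding) (fun f => c (f.map τ.symm)) f * w f) ∘
            symE τ = fun f => cE G c f * (w ∘ symE τ) f := by
          funext f
          simp only [Function.comp_apply, cE_map]
        rw [h3] at h2
        exact h2) N
      (edgeNoise (G.map τ.toEmbedding) (U ∘ τ.symm)) e
    rw [symE_apply] at h1
    rw [h1]
    congr 1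
    funext f
    exact edgeNoise_map τ G U f
  simp only [h]

end Vale.Agent.P143.Net
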