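import Vale.Agent.P143.H985.Law

/-!
# P143, networks: transfer to the ambient index type and limit along an exhaustion
-/

set_option linter.all false

namespace Vale.Agent.P143.W

open MeasureTheory Filter Topology
open Lim (sub mem_sub prod_sub ind_sub subFam sum_subFam ustp_subFam isDrift_subFam measurable_ustp
  measurable_wt)

theorem log_sub_log {x y y' : ℝ} (hx : 0 < x) (hy : 0 < y) (hy' : 0 < y') :
    Real.log (x * y) - Real.log (x * y') = Real.log y - Real.log y' := by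
  rw [Real.log_mul hx.ne' hy.ne', Real.log_mul hx.ne' hy'.ne', add_sub_add_left_eq_sub]

theorem isDrift_wd {E : Type*} {κ : E → ℝ} (hκ : ∀ e, 0 < κ e) {a : (E → ℝ) → E → ℝ}
    (ha : IsDrift a) : IsDrift (wd κ a) where
  nonneg w hw e := ha.nonneg _ (fun f => mul_pos (hκ f) (hw f)) e
  le_one w hw e := ha.le_one _ (fun f => mul_pos (hκ f) (hw f)) e
  lip w w' hw hw' δ h e := ha.lip _ _ (fun f => mul_pos (hκ f) (hw f))
    (fun f => mul_pos (hκ f) (hw' f)) δ (fun f => by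
      rw [log_sub_log (hκ f) (hw f) (hw' f)]
      exact h f) e

theorem convDrift_wd {E : Type*} {κ : E → ℝ} (hκ : ∀ e, 0 < κ e) {an : ℕ → (E → ℝ) → E → ℝ}
    {a : (E → ℝ) → E → ℝ} (h : ConvDrift an a) : ConvDrift (fun n => wd κ (an n)) (wd κ a) := by
  intro w wn K hw hwn ht hl e
  exact h (fun f => κ f * w f) (fun n f => κ f * wn n f) K (fun f => mul_pos (hκ f) (hw f))
    (fun n f => mul_pos (hκ f) (hwn n f)) (fun f => (ht f).const_mul _)
    (fun n f => by rw [log_sub_log (hκ f) (hwn n f) (hw f)]; exact hl n f) e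

theorem measurable_wd_ustp {ι : Type*} [DecidableEq ι] (κ : ι → ℝ) (𝒯 : Finset (Finset ι))
    (i : ι) : Measurable fun w : ι → ℝ => wd κ (ustp 𝒯) w i := by
  have h1 : Measurable fun w : ι → ℝ => fun f => κ f * w f :=
    measurable_pi_iff.2 fun f => (measurable_pi_apply f).const_mul _
  exact (measurable_ustp 𝒯 i).comp h1

theorem measurable_euler {ι : Type*} (a : (ι → ℝ) → ι → ℝ)
    (hm : ∀ i, Measurable fun w : ι → ℝ => a w i) (h : ℝ) (k : ℕ) (i : ι) :
    Measurable fun z : ι → ℝ => euler (field a) h k z i := Lim.measurable_euler a hm h k i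

section Core

variable {E : Type*} [DecidableEq E]

/-- the flow of a finite system has the law of `Z + N 1_T` (finite product form) -/
theorem flow_law_fin {κ : E → ℝ} (hκ : ∀ e, 0 < κ e) (F : Finset E) (𝒯 : Finset (Finset E)) (h𝒯 : 𝒯.Nonempty)
    (hsub : ∀ T ∈ 𝒯, T ⊆ F) (hd : IsDrift (ustp 𝒯)) (S : Finset E) (hSF : S ⊆ F)
    (φ : (S → ℝ) → ℝ) (K : NNReal) (B : ℝ) (hφ : LipschitzWith K φ) (hB : ∀ x, |φ x| ≤ B)
    (N : ℕ) :
    ∫ z : F → ℝ, φ (fun e => flow (wd (fun y : F => κ y) (ustp (subFam F 𝒯))) N z ⟨e, hSF e.2⟩)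
        ∂(Measure.pi fun _ => logistic) =
      (∑ T ∈ 𝒯, (∏ j ∈ T, κ j) * ∫ z : F → ℝ, φ (fun e => z ⟨e, hSF e.2⟩ + N * ind T e)
        ∂(Measure.pi fun _ => logistic)) / ∑ T ∈ 𝒯, ∏ j ∈ T, κ j := by
  set a := wd (fun y : F => κ y) (ustp (subFam F 𝒯)) with ha
  have hda : IsDrift a := isDrift_wd (κ := fun y : F => κ y) (fun y => hκ y)
    (isDrift_subFam F 𝒯 hsub hd)
  let f : (F → ℝ) → ℝ := fun z => φ fun e => z ⟨e, hSF e.2⟩
  have hf : LipschitzWith K f := by
    refine LipschitzWith.of_dist_le_mul fun x y => ?_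
    refine (hφ.dist_le_mul _ _).trans ?_
    refine mul_le_mul_of_nonneg_left ?_ K.2
    rw [dist_pi_le_iff dist_nonneg]
    exact fun e => dist_le_pi_dist x y _
  have hne : (subFam F 𝒯).Nonempty := h𝒯.image _
  have hlim := law_main (κ := fun y : F => κ y) (fun y => hκ y) (subFam F 𝒯) hne
    (isDrift_subFam F 𝒯 hsub hd) f K B hf (fun z => hB _) N
  rw [sum_subFam F 𝒯 hsub, sum_subFam F 𝒯 hsub] at hlim
  have hlim2 : Tendsto (fun j : ℕ => ∫ z : F → ℝ,
      f (euler (field a) (1 / 2 ^ j) (N * 2 ^ j) z) ∂(Measure.pi fun _ => logistic)) atTop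
      (𝓝 (∫ z : F → ℝ, f (flow a N z) ∂(Measure.pi fun _ => logistic))) := by
    refine tendsto_integral_of_dominated_convergence (fun _ => B) (fun j => ?_)
      (integrable_const _) (fun j => ?_) ?_
    · refine (hf.continuous.measurable.comp ?_).aestronglyMeasurable
      exact measurable_pi_iff.2 fun i =>
        measurable_euler a (fun i => measurable_wd_ustp _ _ i) _ _ i
    · filter_upwards with z
      exact hB _
    · filter_upwards with z
      refine (hf.continuous.tendsto _).comp ?_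
      rw [tendsto_pi_nhds]
      intro e
      obtain ⟨C, hC⟩ := euler_sub_flow (E := F) N
      rw [tendsto_iff_norm_sub_tendsto_zero]
      refine squeeze_zero (fun _ => norm_nonneg _) (fun j => hC a hda j z e) ?_
      have : Tendsto (fun j : ℕ => C * (1 / 2 : ℝ) ^ j) atTop (𝓝 (C * 0)) :=
        (tendsto_pow_atTop_nhds_zero_of_lt_one (by norm_num) (by norm_num)).const_mul C
      simpa only [div_eq_mul_inv, one_mul, inv_pow, mul_zero] using this
  have := tendsto_nhds_unique hlim2 hlim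
  rw [show (∫ z : F → ℝ, φ (fun e => flow a N z ⟨e, hSF e.2⟩)
        ∂(Measure.pi fun _ => logistic)) =
      ∫ z : F → ℝ, f (flow a N z) ∂(Measure.pi fun _ => logistic) from rfl, this]
  congr 1
  · refine Finset.sum_congr rfl fun T hT => ?_
    rw [prod_sub F T (hsub T hT)]
    congr 1
    refine integral_congr_ae ?_
    filter_upwards with z
    simp only [f, Pi.add_apply, Pi.smul_apply, smul_eq_mul, ind_sub]
  · exact Finset.sum_congr rfl fun T hT => prod_sub F T (hsub T hT) κ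

/-- the same with the noise given on an ambient probability space -/
theorem flow_law {κ : E → ℝ} (hκ : ∀ e, 0 < κ e) (F : Finset E) (𝒯 : Finset (Finset E)) (h𝒯 : 𝒯.Nonempty)
    (hsub : ∀ T ∈ 𝒯, T ⊆ F) (hd : IsDrift (ustp 𝒯)) (S : Finset E) (hSF : S ⊆ F)
    {Ω : Type*} [MeasurableSpace Ω] (ℙ : Measure Ω) (Z : Ω → E → ℝ) (hZ : Measurable Z)
    (hlaw : Measure.map (fun ω (e : F) => Z ω e) ℙ = Measure.pi fun _ => logistic)
    (φ : (S → ℝ) → ℝ) (K : NNReal) (B : ℝ) (hφ : LipschitzWith K φ) (hB : ∀ x, |φ x| ≤ B)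
    (N : ℕ) :
    ∫ ω, φ (fun e => flow (wd κ (ustp 𝒯)) N (Z ω) e) ∂ℙ =
      (∑ T ∈ 𝒯, (∏ j ∈ T, κ j) * ∫ ω, φ (fun e => Z ω e + N * ind T e) ∂ℙ) /
        ∑ T ∈ 𝒯, ∏ j ∈ T, κ j := by
  have h := flow_law_fin hκ F 𝒯 h𝒯 hsub hd S hSF φ K B hφ hB N
  have hZF : Measurable fun ω (e : F) => Z ω e := by fun_prop
  rw [← hlaw] at h
  have hda : IsDrift (wd (fun y : F => κ y) (ustp (subFam F 𝒯))) :=
    isDrift_wd (κ := fun y : F => κ y) (fun y => hκ y)
    (isDrift_subFam F 𝒯 hsub hd)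
  have hmf : Measurable fun z : F → ℝ => fun e : S =>
      flow (wd (fun y : F => κ y) (ustp (subFam F 𝒯))) N z ⟨e, hSF e.2⟩ := by
    refine measurable_pi_iff.2 fun e => ?_
    have := measurable_flow (Θ := Unit) (fun _ => wd (fun y : F => κ y) (ustp (subFam F 𝒯)))
      (fun _ => hda) (fun i => (measurable_wd_ustp _ (subFam F 𝒯) i).comp measurable_snd) N
      ⟨e, hSF e.2⟩
    exact this.comp (f := fun z : F → ℝ => ((), z)) (by fun_prop)
  have hm1 : Measurable fun z : F → ℝ => φ (fun e : S =>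
      flow (wd (fun y : F => κ y) (ustp (subFam F 𝒯))) N z ⟨e, hSF e.2⟩) := hφ.continuous.measurable.comp hmf
  rw [integral_map hZF.aemeasurable hm1.aestronglyMeasurable] at h
  have h2 : ∀ T : Finset E, ∫ z : F → ℝ, φ (fun e => z ⟨e, hSF e.2⟩ + N * ind T e)
      ∂(Measure.map (fun ω (e : F) => Z ω e) ℙ) = ∫ ω, φ (fun e => Z ω e + N * ind T e) ∂ℙ := by
    intro T
    rw [integral_map hZF.aemeasurable]
    refine (hφ.continuous.measurable.comp ?_).aestronglyMeasurable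
    fun_prop
  simp only [h2] at h
  rw [← h]
  refine integral_congr_ae ?_
  filter_upwards with ω
  congr 1
  ext e
  exact flow_comap (fun x : F => (x : E)) (wd κ (ustp 𝒯))
    (wd (fun y : F => κ y) (ustp (subFam F 𝒯)))
    (fun w _ x => (ustp_subFam F 𝒯 hsub (fun f => κ f * w f) x).symm) N (Z ω) ⟨e, hSF e.2⟩

end Core

end Vale.Agent.P143.W

namespace Vale.Agent.P143.W

open MeasureTheory Filter Topology
open Lim hiding measurable_euler measurable_ustp measurable_wt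

variable {E : Type*}

section

variable [Countable E] [DecidableEq E] {Ω : Type*} [MeasurableSpace Ω]
    (ℙ : Measure Ω) [IsProbabilityMeasure ℙ]
    (A : Set E) (F : ℕ → Finset E) (hF : Monotone F) (hA : ∀ e, e ∈ A ↔ ∃ n, e ∈ F n)
    {κ : E → ℝ} (hκ : ∀ e, 0 < κ e) (𝒯 : ℕ → Finset (Finset E)) (h𝒯 : ∀ n, (𝒯 n).Nonempty)
    (hsub : ∀ n, ∀ T ∈ 𝒯 n, T ⊆ F n)
    (a : (E → ℝ) → E → ℝ) (ha : IsDrift a) (hm : ∀ e, Measurable fun w : E → ℝ => a w e)
    (han : ∀ n, IsDrift (ustp (𝒯 n))) (hconv : ConvDrift (fun n => wd κ (ustp (𝒯 n))) a)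
    (Z : Ω → E → ℝ) (hZ : Measurable Z)
    (hlaw : ∀ S : Finset E, (S : Set E) ⊆ A →
      Measure.map (fun ω (e : S) => Z ω e) ℙ = Measure.pi fun _ => logistic)

include hF hA hκ h𝒯 hsub ha hm han hconv hZ hlaw in
/-- the law of the infinite flow as a limit of finite averages -/
theorem tendsto_finite (S : Finset E) (hS : (S : Set E) ⊆ A)
    (φ : (S → ℝ) → ℝ) (K : NNReal) (B : ℝ) (hφ : LipschitzWith K φ) (hB : ∀ x, |φ x| ≤ B)
    (N : ℕ) :
    Tendsto (fun n => (∑ T ∈ 𝒯 n, (∏ j ∈ T, κ j) *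
      ∫ ω, φ (fun e => Z ω e + N * ind T e) ∂ℙ) / ∑ T ∈ 𝒯 n, ∏ j ∈ T, κ j)
      atTop (𝓝 (∫ ω, φ (fun e => flow a N (Z ω) e) ∂ℙ)) := by
  have h1 : ∀ᶠ n in atTop, ∫ ω, φ (fun e => flow (wd κ (ustp (𝒯 n))) N (Z ω) e) ∂ℙ =
      (∑ T ∈ 𝒯 n, (∏ j ∈ T, κ j) * ∫ ω, φ (fun e => Z ω e + N * ind T e) ∂ℙ) /
        ∑ T ∈ 𝒯 n, ∏ j ∈ T, κ j := by
    filter_upwards [eventually_subset A F hF hA S hS] with n hn
    refine flow_law hκ (F n) (𝒯 n) (h𝒯 n) (hsub n) (han n) S hn ℙ Z hZ (hlaw _ ?_) φ K B hφ hB N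
    intro e he
    exact (hA e).2 ⟨n, he⟩
  refine Tendsto.congr' h1 ?_
  refine tendsto_integral_of_dominated_convergence (fun _ => B) (fun n => ?_)
    (integrable_const _) (fun n => ?_) ?_
  · refine (hφ.continuous.measurable.comp (measurable_pi_iff.2 fun e => ?_)).aestronglyMeasurable
    exact measurable_flow_comp (wd κ (ustp (𝒯 n))) (isDrift_wd hκ (han n))
      (fun e => measurable_wd_ustp _ _ e) Z hZ N e
  · filter_upwards with ω using hB _
  · filter_upwards with ω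
    refine (hφ.continuous.tendsto _).comp ?_
    rw [tendsto_pi_nhds]
    intro e
    exact flow_tendsto a (fun n => wd κ (ustp (𝒯 n))) ha (fun n => isDrift_wd hκ (han n)) hconv
      N (Z ω) e

include hF hA hκ h𝒯 hsub ha hm han hconv hZ hlaw in
/-- the position at time `N` is rarely in the middle -/
theorem prob_middle (e : E) (he : e ∈ A) (N : ℕ) :
    ℙ.real {ω | |flow a N (Z ω) e / N - 1 / 2| ≤ 1 / 8} ≤ 2 * Real.exp (-((N : ℝ) / 4)) := by
  rcases Nat.eq_zero_or_pos N with rfl | hN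
  · have h1 : ℙ.real {ω | |flow a 0 (Z ω) e / (0 : ℕ) - 1 / 2| ≤ 1 / 8} ≤ 1 := measureReal_le_one
    refine h1.trans ?_
    norm_num
  have hN1 : (1 : ℝ) ≤ N := by exact_mod_cast hN
  have hN0 : (0 : ℝ) < N := by linarith only [hN1]
  obtain ⟨S, hSe⟩ : ∃ S : Finset E, S = {e} := ⟨_, rfl⟩
  have heS : e ∈ S := by rw [hSe]; exact Finset.mem_singleton_self e
  obtain ⟨φ, hφd⟩ : ∃ φ : (S → ℝ) → ℝ, ∀ x, φ x = cl (2 - 8 * |x ⟨e, heS⟩ / N - 1 / 2|) :=
    ⟨_, fun _ => rfl⟩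
  have hφ : LipschitzWith 8 φ := by
    refine LipschitzWith.of_dist_le_mul fun x y => ?_
    have h1 : dist (x ⟨e, heS⟩) (y ⟨e, heS⟩) ≤ dist x y := dist_le_pi_dist x y _
    rw [Real.dist_eq, hφd, hφd]
    rw [Real.dist_eq] at h1
    refine (cl_lip _ _).trans ?_
    have h2 : |(2 - 8 * |x ⟨e, heS⟩ / N - 1 / 2|) - (2 - 8 * |y ⟨e, heS⟩ / N - 1 / 2|)| ≤
        8 * |(x ⟨e, heS⟩ / N - 1 / 2) - (y ⟨e, heS⟩ / N - 1 / 2)| := by
      rw [show (2 - 8 * |x ⟨e, heS⟩ / N - 1 / 2|) - (2 - 8 * |y ⟨e, heS⟩ / N - 1 / 2|) =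
        8 * (|y ⟨e, heS⟩ / N - 1 / 2| - |x ⟨e, heS⟩ / N - 1 / 2|) by ring, abs_mul,
        abs_of_pos (by norm_num : (0 : ℝ) < 8), abs_sub_comm (x ⟨e, heS⟩ / N - 1 / 2)]
      exact mul_le_mul_of_nonneg_left (abs_abs_sub_abs_le_abs_sub _ _) (by norm_num)
    refine h2.trans ?_
    rw [show (x ⟨e, heS⟩ / N - 1 / 2) - (y ⟨e, heS⟩ / N - 1 / 2) =
      (x ⟨e, heS⟩ - y ⟨e, heS⟩) / N by ring, abs_div, abs_of_pos hN0]
    have h3 : |x ⟨e, heS⟩ - y ⟨e, heS⟩| / N ≤ |x ⟨e, heS⟩ - y ⟨e, heS⟩| :=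
      div_le_self (abs_nonneg _) hN1
    have : ((8 : NNReal) : ℝ) = 8 := rfl
    rw [this]
    linarith only [h1, h3]
  have hφ0 : ∀ x, 0 ≤ φ x := fun x => by rw [hφd]; exact cl_nonneg _
  have hφ1 : ∀ x, φ x ≤ 1 := fun x => by rw [hφd]; exact cl_le_one _
  have hS : (S : Set E) ⊆ A := by rw [hSe]; simpa using he
  have hlim := tendsto_finite ℙ A F hF hA hκ 𝒯 h𝒯 hsub a ha hm han hconv Z hZ hlaw S hS φ 8 1 hφ
    (fun x => abs_le.2 ⟨by linarith only [hφ0 x], hφ1 x⟩) N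
  -- the limit is at most the tail
  have hup : ∫ ω, φ (fun e => flow a N (Z ω) e) ∂ℙ ≤ 2 * Real.exp (-((N : ℝ) / 4)) := by
    refine le_of_tendsto' hlim fun n => ?_
    have hc : (0 : ℝ) < ∑ T ∈ 𝒯 n, ∏ j ∈ T, κ j := sum_prod_pos (h𝒯 n) hκ
    rw [div_le_iff₀ hc]
    have hterm : ∀ T ∈ 𝒯 n, ∫ ω, φ (fun e => Z ω e + N * ind T e) ∂ℙ ≤
        2 * Real.exp (-((N : ℝ) / 4)) := by
      intro T _
      refine le_trans ?_ (tail_Z ℙ A Z hZ hlaw e he ((N : ℝ) / 4))
      have hms : MeasurableSet {ω | (N : ℝ) / 4 ≤ |Z ω e|} :=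
        measurableSet_le measurable_const (by fun_prop)
      rw [← integral_indicator_one hms]
      refine integral_mono_of_nonneg ?_ ?_ ?_
      · filter_upwards with ω using hφ0 _
      · exact (integrable_const (1 : ℝ)).indicator hms
      · filter_upwards with ω
        by_cases hω : (N : ℝ) / 4 ≤ |Z ω e|
        · rw [Set.indicator_of_mem (by exact hω)]
          exact hφ1 _
        · rw [Set.indicator_of_notMem (by exact hω), hφd]
          push Not at hω
          have hz := abs_lt.1 hω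
          refine (cl_of_nonpos ?_).le
          have hq : (1 : ℝ) / 4 ≤ |(Z ω e + N * ind T e) / N - 1 / 2| := by
            unfold ind
            split_ifs with h
            · refine le_trans ?_ (le_abs_self _)
              have : (Z ω e + N * 1) / N = Z ω e / N + 1 := by (clear * - hN; field_simp)
              rw [this]
              have : -(1 / 4) < Z ω e / N := by rw [lt_div_iff₀ hN0]; linarith only [hz]
              linarith only [this]
            · refine le_trans ?_ (neg_le_abs _)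
              have : (Z ω e + N * 0) / N = Z ω e / N := by simp
              rw [this]
              have : Z ω e / N < 1 / 4 := by rw [div_lt_iff₀ hN0]; linarith only [hz]
              linarith only [this]
          linarith only [hq]
    calc ∑ T ∈ 𝒯 n, (∏ j ∈ T, κ j) * ∫ ω, φ (fun e => Z ω e + N * ind T e) ∂ℙ
        ≤ ∑ T ∈ 𝒯 n, (∏ j ∈ T, κ j) * (2 * Real.exp (-((N : ℝ) / 4))) :=
          Finset.sum_le_sum fun T hT => mul_le_mul_of_nonneg_left (hterm T hT)
            (Finset.prod_nonneg fun j _ => (hκ j).le)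
      _ = 2 * Real.exp (-((N : ℝ) / 4)) * ∑ T ∈ 𝒯 n, ∏ j ∈ T, κ j := by
          rw [← Finset.sum_mul, mul_comm]
  refine le_trans ?_ hup
  have hmf := measurable_flow_comp a ha hm Z hZ N e
  have hms : MeasurableSet {ω | |flow a N (Z ω) e / N - 1 / 2| ≤ 1 / 8} :=
    measurableSet_le (by fun_prop) measurable_const
  have hmφ : Measurable fun ω => φ (fun e => flow a N (Z ω) e) :=
    hφ.continuous.measurable.comp (measurable_pi_iff.2 fun e' =>
      measurable_flow_comp a ha hm Z hZ N e')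
  rw [← integral_indicator_one hms]
  refine integral_mono_of_nonneg ?_ ?_ ?_
  · filter_upwards with ω
    exact Set.indicator_nonneg (fun _ _ => zero_le_one) _
  · refine Integrable.mono' (integrable_const (1 : ℝ)) hmφ.aestronglyMeasurable ?_
    filter_upwards with ω
    rw [Real.norm_eq_abs, abs_of_nonneg (hφ0 _)]
    exact hφ1 _
  · filter_upwards with ω
    by_cases hω : |flow a N (Z ω) e / N - 1 / 2| ≤ 1 / 8
    · rw [Set.indicator_of_mem (by exact hω), hφd]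
      simp only [Pi.one_apply]
      rw [cl_of_one_le]
      linarith only [hω]
    · rw [Set.indicator_of_notMem (by exact hω)]
      exact hφ0 _

include hF hA hκ h𝒯 hsub ha hm han hconv hZ hlaw in
/-- almost surely every element eventually stays high or stays low -/
theorem ae_dichotomy (e : E) (he : e ∈ A) :
    ∀ᵐ ω ∂ℙ, (∀ᶠ N : ℕ in atTop, 5 / 8 * (N : ℝ) < flow a N (Z ω) e) ∨
      (∀ᶠ N : ℕ in atTop, flow a N (Z ω) e < 3 / 8 * (N : ℝ)) := by
  have hsum : ∑' N : ℕ, ℙ {ω | |flow a N (Z ω) e / N - 1 / 2| ≤ 1 / 8} ≠ ⊤ := by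
    have h1 : ∀ N : ℕ, ℙ {ω | |flow a N (Z ω) e / N - 1 / 2| ≤ 1 / 8} ≤
        ENNReal.ofReal (2 * Real.exp (-((N : ℝ) / 4))) := by
      intro N
      rw [← ofReal_measureReal]
      exact ENNReal.ofReal_le_ofReal
        (prob_middle ℙ A F hF hA hκ 𝒯 h𝒯 hsub a ha hm han hconv Z hZ hlaw e he N)
    refine ne_top_of_le_ne_top ?_ (ENNReal.tsum_le_tsum h1)
    exact summable_tail.tsum_ofReal_ne_top
  filter_upwards [ae_eventually_notMem hsum] with ω hω
  obtain ⟨N0, hN0⟩ := eventually_atTop.1 hω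
  have hstep : ∀ N, |flow a (N + 1) (Z ω) e - flow a N (Z ω) e| ≤ 1 := fun N =>
    flow_succ_sub a ha N (Z ω) e
  have hdi : ∀ N : ℕ, N0 ≤ N → 1 ≤ N → 5 / 8 * (N : ℝ) < flow a N (Z ω) e ∨
      flow a N (Z ω) e < 3 / 8 * (N : ℝ) := by
    intro N hN hN1
    have h := hN0 N hN
    have hNpos : (0 : ℝ) < N := by exact_mod_cast hN1
    have h' : ¬ |flow a N (Z ω) e / N - 1 / 2| ≤ 1 / 8 := h
    rw [not_le, lt_abs] at h'
    rcases h' with h' | h'
    · left
      have : 5 / 8 < flow a N (Z ω) e / N := by linarith only [h']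
      rwa [lt_div_iff₀ hNpos] at this
    · right
      have : flow a N (Z ω) e / N < 3 / 8 := by linarith only [h']
      rwa [div_lt_iff₀ hNpos] at this
  by_cases hlow : ∃ N1, N0 ≤ N1 ∧ 4 ≤ N1 ∧ flow a N1 (Z ω) e < 3 / 8 * (N1 : ℝ)
  · right
    obtain ⟨N1, h1, h2, h3⟩ := hlow
    refine eventually_atTop.2 ⟨N1, fun N hN => ?_⟩
    induction N, hN using Nat.le_induction with
    | base => exact h3
    | succ N hN ih =>
      rcases hdi (N + 1) (by omega) (by omega) with h | h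
      · exfalso
        have h4 := (abs_le.1 (hstep N)).2
        have h5 : (4 : ℝ) ≤ N := by exact_mod_cast h2.trans hN
        push_cast at h
        linarith only [ih, h4, h5, h]
      · exact h
  · left
    push Not at hlow
    refine eventually_atTop.2 ⟨max N0 4, fun N hN => ?_⟩
    rcases hdi N (le_trans (le_max_left _ _) hN) (by have := le_trans (le_max_right N0 4) hN; omega)
      with h | h
    · exact h
    · exact absurd h (not_lt.2 (hlow N (le_trans (le_max_left _ _) hN)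
        (le_trans (le_max_right _ _) hN)))

include hF hA hκ h𝒯 hsub ha hm han hconv hZ hlaw in
/-- the tests along the infinite flow converge to the probability of the pattern -/
theorem tendsto_test (S B : Finset E) (hS : (S : Set E) ⊆ A) :
    Tendsto (fun N : ℕ => ∫ ω, test S B N (fun e => flow a N (Z ω) e) ∂ℙ) atTop
      (𝓝 (ℙ.real {ω | ∀ e ∈ S, (e ∈ limitSet a (Z ω) ↔ e ∈ B)})) := by
  classical
  have hms : MeasurableSet {ω | ∀ e ∈ S, (e ∈ limitSet a (Z ω) ↔ e ∈ B)} := by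
    have : {ω | ∀ e ∈ S, (e ∈ limitSet a (Z ω) ↔ e ∈ B)} =
        ⋂ e ∈ S, {ω | e ∈ limitSet a (Z ω) ↔ e ∈ B} := by
      ext ω; simp only [Set.mem_ofPred_eq, Set.mem_iInter]
    rw [this]
    refine Finset.measurableSet_biInter S fun e _ => ?_
    have h1 := measurableSet_limit a ha hm Z hZ e
    by_cases he : e ∈ B
    · have : {ω | e ∈ limitSet a (Z ω) ↔ e ∈ B} = {ω | e ∈ limitSet a (Z ω)} := by
        ext ω; simp [he]
      rw [this]
      exact h1
    · have : {ω | e ∈ limitSet a (Z ω) ↔ e ∈ B} = {ω | e ∈ limitSet a (Z ω)}ᶜ := by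
        ext ω; simp [he]
      rw [this]
      exact h1.compl
  rw [← integral_indicator_one hms]
  have hae : ∀ᵐ ω ∂ℙ, ∀ e ∈ S, (∀ᶠ N : ℕ in atTop, 5 / 8 * (N : ℝ) < flow a N (Z ω) e) ∨
      (∀ᶠ N : ℕ in atTop, flow a N (Z ω) e < 3 / 8 * (N : ℝ)) :=
    (ae_ball_iff S.countable_toSet).2 fun e he =>
      ae_dichotomy ℙ A F hF hA hκ 𝒯 h𝒯 hsub a ha hm han hconv Z hZ hlaw e (hS he)
  refine Tendsto.congr' (f₁ := fun N : ℕ => ∫ ω, test S B (max N 1)
    (fun e => flow a (max N 1) (Z ω) e) ∂ℙ) ?_ ?_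
  · filter_upwards [eventually_ge_atTop 1] with N hN
    rw [max_eq_left hN]
  refine tendsto_integral_of_dominated_convergence (fun _ => (1 : ℝ)) (fun N => ?_)
    (integrable_const _) (fun N => ?_) ?_
  · exact ((test_lip S B (max N 1) (le_max_right _ _)).continuous.measurable.comp
      (measurable_pi_iff.2 fun e =>
        measurable_flow_comp a ha hm Z hZ (max N 1) e)).aestronglyMeasurable
  · filter_upwards with ω
    rw [Real.norm_eq_abs, abs_of_nonneg (test_nonneg _ _ _ _)]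
    exact test_le_one _ _ _ _
  · filter_upwards [hae] with ω hω
    have hev : ∀ᶠ N : ℕ in atTop, ∀ e ∈ S, disc B N e (flow a N (Z ω) e) =
        if (e ∈ limitSet a (Z ω) ↔ e ∈ B) then 0 else 1 := by
      rw [Filter.eventually_all_finset]
      intro e he
      rcases hω e he with h | h
      · have hmem : e ∈ limitSet a (Z ω) := by
          filter_upwards [h] with N hN
          have : (0 : ℝ) ≤ N := Nat.cast_nonneg N
          linarith only [hN]
        filter_upwards [h, eventually_ge_atTop 1] with N hN hN1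
        rw [disc_high B N hN1 e _ hN]
        simp [hmem]
      · have hmem : e ∉ limitSet a (Z ω) := by
          intro hmem
          have hmem' : ∀ᶠ N : ℕ in atTop, (N : ℝ) / 2 ≤ flow a N (Z ω) e := hmem
          obtain ⟨N, h1, h2, h3⟩ := (h.and (hmem'.and (eventually_ge_atTop 1))).exists
          have : (1 : ℝ) ≤ N := by exact_mod_cast h3
          linarith only [h1, h2]
        filter_upwards [h, eventually_ge_atTop 1] with N hN hN1
        rw [disc_low B N hN1 e _ hN]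
        by_cases heB : e ∈ B <;> simp [hmem, heB]
    have hev2 : ∀ᶠ N : ℕ in atTop, test S B (max N 1) (fun e => flow a (max N 1) (Z ω) e) =
        Set.indicator {ω | ∀ e ∈ S, (e ∈ limitSet a (Z ω) ↔ e ∈ B)} (1 : Ω → ℝ) ω := by
      filter_upwards [hev, eventually_ge_atTop 1] with N hN hN1
      rw [max_eq_left hN1]
      by_cases hω : ∀ e ∈ S, (e ∈ limitSet a (Z ω) ↔ e ∈ B)
      · rw [Set.indicator_of_mem (by exact hω)]
        exact test_eq_one S B N _ fun e => by rw [hN e e.2, if_pos (hω e e.2)]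
      · rw [Set.indicator_of_notMem (by exact hω)]
        push Not at hω
        obtain ⟨e, heS, he⟩ := hω
        have he' : ¬ (e ∈ limitSet a (Z ω) ↔ e ∈ B) := by (clear * - he; tauto)
        exact test_eq_zero S B N _ ⟨e, heS⟩ (by rw [hN e heS, if_neg he'])
    exact tendsto_const_nhds.congr' (hev2.mono fun N h => h.symm)

end

theorem limit_main [Countable E] [DecidableEq E] {Ω : Type*} [MeasurableSpace Ω]
    (ℙ : Measure Ω) [IsProbabilityMeasure ℙ]
    (A : Set E) (F : ℕ → Finset E) (hF : Monotone F) (hA : ∀ e, e ∈ A ↔ ∃ n, e ∈ F n)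
    {κ : E → ℝ} (hκ : ∀ e, 0 < κ e) (𝒯 : ℕ → Finset (Finset E)) (h𝒯 : ∀ n, (𝒯 n).Nonempty)
    (hsub : ∀ n, ∀ T ∈ 𝒯 n, T ⊆ F n)
    (a : (E → ℝ) → E → ℝ) (ha : IsDrift a) (hm : ∀ e, Measurable fun w : E → ℝ => a w e)
    (han : ∀ n, IsDrift (ustp (𝒯 n))) (hconv : ConvDrift (fun n => wd κ (ustp (𝒯 n))) a)
    (Z : Ω → E → ℝ) (hZ : Measurable Z)
    (hlaw : ∀ S : Finset E, (S : Set E) ⊆ A →
      Measure.map (fun ω (e : S) => Z ω e) ℙ = Measure.pi fun _ => logistic)
    (S B : Finset E) (hS : (S : Set E) ⊆ A) (hB : B ⊆ S) :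
    Tendsto (fun n => (∑ T ∈ (𝒯 n).filter fun T => T ∩ S = B, ∏ j ∈ T, κ j) /
      ∑ T ∈ 𝒯 n, ∏ j ∈ T, κ j) atTop
      (𝓝 (ℙ.real {ω | ∀ e ∈ S, (e ∈ limitSet a (Z ω) ↔ e ∈ B)})) := by
  set q := ℙ.real {ω | ∀ e ∈ S, (e ∈ limitSet a (Z ω) ↔ e ∈ B)} with hq
  rw [Metric.tendsto_atTop]
  intro ε hε
  have h1 := tendsto_test ℙ A F hF hA hκ 𝒯 h𝒯 hsub a ha hm han hconv Z hZ hlaw S B hS
  have h2 : Tendsto (fun N : ℕ => (S.card : ℝ) * (2 * Real.exp (-((N : ℝ) / 4)))) atTop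
      (𝓝 0) := by
    have := summable_tail.tendsto_atTop_zero.const_mul (S.card : ℝ)
    simpa only [mul_zero] using this
  obtain ⟨N, hN1, hN2, hN3⟩ := ((Metric.tendsto_nhds.1 h1 (ε / 3) (by positivity)).and
    ((h2.eventually_lt_const (by positivity : (0 : ℝ) < ε / 3)).and
      (eventually_ge_atTop 1))).exists
  have h3 := tendsto_finite ℙ A F hF hA hκ 𝒯 h𝒯 hsub a ha hm han hconv Z hZ hlaw S hS
    (test S B N) (4 * S.card) 1 (test_lip S B N hN3)
    (fun x => abs_le.2 ⟨by linarith only [test_nonneg S B N x], test_le_one S B N x⟩) N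
  obtain ⟨n0, hn0⟩ := Metric.tendsto_atTop.1 h3 (ε / 3) (by positivity)
  refine ⟨n0, fun n hn => ?_⟩
  have h4 := hn0 n hn
  set W : ℝ := ∑ T ∈ 𝒯 n, ∏ j ∈ T, κ j with hW
  have hc : (0 : ℝ) < W := sum_prod_pos (h𝒯 n) hκ
  have h5 : |(∑ T ∈ (𝒯 n).filter fun T => T ∩ S = B, ∏ j ∈ T, κ j) / W -
      (∑ T ∈ 𝒯 n, (∏ j ∈ T, κ j) *
        ∫ ω, test S B N (fun e => Z ω e + N * ind T e) ∂ℙ) / W| ≤
      S.card * (2 * Real.exp (-((N : ℝ) / 4))) := by
    have h6 : (∑ T ∈ (𝒯 n).filter fun T => T ∩ S = B, ∏ j ∈ T, κ j) =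
        ∑ T ∈ 𝒯 n, (∏ j ∈ T, κ j) * (if T ∩ S = B then (1 : ℝ) else 0) := by
      rw [Finset.sum_filter]
      refine Finset.sum_congr rfl fun T _ => ?_
      split_ifs <;> simp
    rw [h6, ← sub_div, ← Finset.sum_sub_distrib, abs_div, abs_of_pos hc, div_le_iff₀ hc]
    refine (Finset.abs_sum_le_sum_abs _ _).trans ?_
    have h7 : ∀ T ∈ 𝒯 n, |(∏ j ∈ T, κ j) * (if T ∩ S = B then (1 : ℝ) else 0) -
        (∏ j ∈ T, κ j) * ∫ ω, test S B N (fun e => Z ω e + N * ind T e) ∂ℙ| ≤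
        (∏ j ∈ T, κ j) * (S.card * (2 * Real.exp (-((N : ℝ) / 4)))) := by
      intro T _
      have h8 : 0 ≤ ∏ j ∈ T, κ j := Finset.prod_nonneg fun j _ => (hκ j).le
      rw [← mul_sub, abs_mul, abs_of_nonneg h8, abs_sub_comm]
      exact mul_le_mul_of_nonneg_left (test_shift ℙ A Z hZ hlaw S B hS hB N hN3 T) h8
    refine (Finset.sum_le_sum h7).trans ?_
    rw [← Finset.sum_mul, mul_comm]
  rw [Real.dist_eq] at h4 hN1 ⊢
  have h8 := abs_sub_le ((∑ T ∈ (𝒯 n).filter fun T => T ∩ S = B, ∏ j ∈ T, κ j) / W)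
    ((∑ T ∈ 𝒯 n, (∏ j ∈ T, κ j) * ∫ ω, test S B N (fun e => Z ω e + N * ind T e) ∂ℙ) / W) q
  have h9 := abs_sub_le
    ((∑ T ∈ 𝒯 n, (∏ j ∈ T, κ j) * ∫ ω, test S B N (fun e => Z ω e + N * ind T e) ∂ℙ) / W)
    (∫ ω, test S B N (fun e => flow a N (Z ω) e) ∂ℙ) q
  linarith

end Vale.Agent.P143.W
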