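import Vale.Agent.P143.Bdl.B1
import Vale.Agent.P143.H985.Defs

/-!
# P143, networks: the random spanning tree of a finite network as a finite average
-/

set_option linter.all false

namespace Vale.Agent.P143.Net

open MeasureTheory ProbabilityTheory Filter Topology SimpleGraph
open scoped ENNReal

variable {V : Type*}

theorem integral_randomPoint {Ω : Type*} [MeasurableSpace Ω] [MeasurableSingletonClass Ω]
    (s : Finset Ω) (w : Ω → ℝ) (hw : ∀ ω ∈ s, 0 ≤ w ω) (f : Ω → ℝ) :
    ∫ ω, f ω ∂(randomPoint (s : Set Ω) w) = (∑ ω ∈ s, w ω * f ω) / ∑ ω ∈ s, w ω := by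
  have e1 : (∑' ω : (s : Set Ω), ENNReal.ofReal (w ω)) = ENNReal.ofReal (∑ ω ∈ s, w ω) := by
    rw [tsum_fintype, ENNReal.ofReal_sum_of_nonneg hw]
    exact Finset.sum_finset_coe (fun ω => ENNReal.ofReal (w ω)) s
  have e2 : (Measure.sum fun ω : (s : Set Ω) => ENNReal.ofReal (w ω) • Measure.dirac (ω : Ω)) =
      ∑ ω ∈ s, ENNReal.ofReal (w ω) • Measure.dirac ω := by
    rw [Measure.sum_fintype]
    exact Finset.sum_finset_coe (fun ω => ENNReal.ofReal (w ω) • Measure.dirac ω) s
  have h0 : 0 ≤ ∑ ω ∈ s, w ω := Finset.sum_nonneg hw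
  rw [randomPoint, integral_smul_measure, e1, e2, integral_finset_sum_measure]
  · rw [ENNReal.toReal_inv, ENNReal.toReal_ofReal h0, smul_eq_mul, inv_mul_eq_div]
    congr 1
    refine Finset.sum_congr rfl fun ω hω => ?_
    rw [integral_smul_measure, integral_dirac, ENNReal.toReal_ofReal (hw ω hω), smul_eq_mul]
  · intro ω _
    exact (integrable_dirac (by simp)).smul_measure ENNReal.ofReal_ne_top

theorem isProbabilityMeasure_randomPoint {Ω : Type*} [MeasurableSpace Ω]
    (s : Finset Ω) (w : Ω → ℝ) (hw : ∀ ω ∈ s, 0 ≤ w ω) (h0 : 0 < ∑ ω ∈ s, w ω) :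
    IsProbabilityMeasure (randomPoint (s : Set Ω) w) := by
  have e1 : (∑' ω : (s : Set Ω), ENNReal.ofReal (w ω)) = ENNReal.ofReal (∑ ω ∈ s, w ω) := by
    rw [tsum_fintype, ENNReal.ofReal_sum_of_nonneg hw]
    exact Finset.sum_finset_coe (fun ω => ENNReal.ofReal (w ω)) s
  refine ⟨?_⟩
  rw [randomPoint, Measure.smul_apply, Measure.sum_apply _ MeasurableSet.univ]
  simp only [Measure.smul_apply, measure_univ, smul_eq_mul, mul_one]
  rw [e1]
  refine ENNReal.inv_mul_cancel ?_ ENNReal.ofReal_ne_top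
  rw [Ne, ENNReal.ofReal_eq_zero, not_le]
  exact h0

/-- the weight of a finite set of edges -/
theorem weight_decide [DecidableEq (Sym2 V)] {G : SimpleGraph V} (c : Sym2 V → ℝ)
    (T : Finset (Sym2 V)) (hT : (T : Set (Sym2 V)) ⊆ G.edgeSet) :
    weight c (fun e : G.edgeSet => decide ((e : Sym2 V) ∈ T)) = ∏ e ∈ T, c e := by
  classical
  have h1 : (fun e : G.edgeSet => if decide ((e : Sym2 V) ∈ T) = true then c e else 1) =
      fun e : G.edgeSet => if (e : Sym2 V) ∈ T then c e else 1 := by
    funext e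
    by_cases he : (e : Sym2 V) ∈ T <;> simp [he]
  rw [weight, h1]
  have h2 : Function.mulSupport (fun e : G.edgeSet => if (e : Sym2 V) ∈ T then c e else 1) ⊆
      ((T.subtype (· ∈ G.edgeSet) : Finset G.edgeSet) : Set G.edgeSet) := by
    intro e he
    rw [Finset.mem_coe, Finset.mem_subtype]
    by_contra h
    exact he (if_neg h)
  rw [finprod_eq_prod_of_mulSupport_subset _ h2]
  have h3 : ∀ e ∈ T.subtype (· ∈ G.edgeSet), (if (e : Sym2 V) ∈ T then c e else 1) = c e := by
    intro e he
    rw [Finset.mem_subtype] at he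
    exact if_pos he
  rw [Finset.prod_congr rfl h3, Finset.prod_subtype_of_mem c (fun e he => hT he)]

section

variable [Countable V] [DecidableEq (Sym2 V)] {G : SimpleGraph V} (H : G.Subgraph)
  (hc : H.Connected) (F : Finset (Sym2 V)) (hF : (F : Set (Sym2 V)) = H.edgeSet)
  {c : Sym2 V → ℝ} (hpos : Positive G c)

include hF hpos in
theorem prod_pos_spans {T : Finset (Sym2 V)} (hT : T ∈ spans F) : 0 < ∏ e ∈ T, c e := by
  refine Finset.prod_pos fun e he => hpos e ?_
  have h1 : e ∈ (F : Set (Sym2 V)) := by exact_mod_cast spans_subset hT he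
  rw [hF] at h1
  exact H.edgeSet_subset h1

include hc hF hpos in
/-- integrals against the random spanning tree are weighted averages over `spans` -/
theorem integral_wust (f : (G.edgeSet → Bool) → ℝ) :
    ∫ ω, f ω ∂(wust c H)
      = (∑ T ∈ spans F, (∏ e ∈ T, c e) * f (fun e => decide ((e : Sym2 V) ∈ T))) /
        ∑ T ∈ spans F, ∏ e ∈ T, c e := by
  classical
  have hFG : (F : Set (Sym2 V)) ⊆ G.edgeSet := by
    rw [hF]; exact H.edgeSet_subset
  have hsp : ∀ T ∈ spans F, (T : Set (Sym2 V)) ⊆ G.edgeSet := fun T hT e he =>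
    hFG (by exact_mod_cast spans_subset hT (by exact_mod_cast he))
  have hw : ∀ ω ∈ (spans F).image (fun (T : Finset (Sym2 V)) (e : G.edgeSet) =>
      decide ((e : Sym2 V) ∈ T)), 0 ≤ weight c ω := by
    intro ω hω
    rw [Finset.mem_image] at hω
    obtain ⟨T, hT, rfl⟩ := hω
    rw [weight_decide c T (hsp T hT)]
    exact (prod_pos_spans H F hF hpos hT).le
  rw [wust, spanningTrees_eq H hc F hF, ← Finset.coe_image, integral_randomPoint _ _ hw,
    Finset.sum_image (injOn_spans F hFG), Finset.sum_image (injOn_spans F hFG)]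
  congr 1
  · refine Finset.sum_congr rfl fun T hT => ?_
    rw [weight_decide c T (hsp T hT)]
  · refine Finset.sum_congr rfl fun T hT => ?_
    rw [weight_decide c T (hsp T hT)]

include hc hF hpos in
theorem isProbabilityMeasure_wust : IsProbabilityMeasure (wust c H) := by
  classical
  have hFG : (F : Set (Sym2 V)) ⊆ G.edgeSet := by
    rw [hF]; exact H.edgeSet_subset
  have hsp : ∀ T ∈ spans F, (T : Set (Sym2 V)) ⊆ G.edgeSet := fun T hT e he =>
    hFG (by exact_mod_cast spans_subset hT (by exact_mod_cast he))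
  have hw : ∀ ω ∈ (spans F).image (fun (T : Finset (Sym2 V)) (e : G.edgeSet) =>
      decide ((e : Sym2 V) ∈ T)), 0 < weight c ω := by
    intro ω hω
    rw [Finset.mem_image] at hω
    obtain ⟨T, hT, rfl⟩ := hω
    rw [weight_decide c T (hsp T hT)]
    exact prod_pos_spans H F hF hpos hT
  rw [wust, spanningTrees_eq H hc F hF, ← Finset.coe_image]
  exact isProbabilityMeasure_randomPoint _ _ (fun ω hω => (hw ω hω).le)
    (Finset.sum_pos hw ((spans_nonempty F).image _))

end

end Vale.Agent.P143.Net
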