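import Vale.Agent.P143.H985.Fac
import Vale.Agent.P143.H985.Ust

/-!
# P143, networks: assembly
-/

set_option linter.all false

namespace Vale.Agent.P143.Net

open SimpleGraph Filter Topology MeasureTheory unitInterval ProbabilityTheory
open W (wd isDrift_wd convDrift_wd)

/-- the factor map has the law of the free uniform spanning forest of the network -/
theorem isNetFUSF_nfactor {V : Type*} (G : SimpleGraph V) (hG : G.Connected)
    (hlf : ∀ v, (G.neighborSet v).Finite) (c : Sym2 V → ℝ) (hc : Positive G c) :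
    IsNetFUSF G c ((iidLabels V).map fun U (e : G.edgeSet) => nfactor G c U e) := by
  classical
  have hcV : Countable V := countable_of_locallyFinite G hG hlf
  have hcE : Countable (Sym2 V) := Quotient.countable
  have : IsProbabilityMeasure (iidLabels V) := by unfold iidLabels; infer_instance
  have hfm : Measurable fun (U : V → I) (e : G.edgeSet) => nfactor G c U e :=
    measurable_nfactor_fixed G c
  have hprob : IsProbabilityMeasure
      ((iidLabels V).map fun U (e : G.edgeSet) => nfactor G c U e) :=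
    Measure.isProbabilityMeasure_map hfm.aemeasurable
  refine ⟨hprob, exists_exhaustion G hG hlf, ?_⟩
  intro H hH f
  obtain ⟨F, hFmono, hFH, hFG⟩ : ∃ F : ℕ → Finset (Sym2 V), Monotone F ∧
      (∀ n, (F n : Set (Sym2 V)) = (H n).edgeSet) ∧ ∀ e, e ∈ G.edgeSet ↔ ∃ n, e ∈ F n :=
    ⟨hH.edges, hH.edges_mono, hH.coe_edges, hH.mem_iff_exists⟩
  have hust : ∀ n, IsProbabilityMeasure (wust c (H n)) := fun n =>
    isProbabilityMeasure_wust (H n) (hH.connected n) (F n) (hFH n) hc
  refine weak_of_cylinder (fun n => wust c (H n)) _ ?_ f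
  intro S B hBS
  have hnd : ∀ e ∈ G.edgeSet, ¬ e.IsDiag := fun e he => G.not_isDiag_of_mem_edgeSet he
  have hFnd : ∀ n, ∀ e ∈ F n, ¬ e.IsDiag := fun n e he => hnd e ((hFG e).2 ⟨n, he⟩)
  have hmeasN : Measurable fun U : V → I => edgeNoise G U := measurable_edgeNoise_fixed G
  have key := W.limit_main (iidLabels V) G.edgeSet F hFmono hFG (cE_pos G c)
    (fun n => spans (F n))
    (fun n => spans_nonempty _) (fun n T hT => spans_subset hT) (nd G c) (isDrift_nd G c)
    (fun e => measurable_nd_fixed G c e)
    (fun n => isDrift_ustp (hFnd n)) (convDrift_wd (cE_pos G c) (convDrift hnd F hFmono hFG))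
    (fun U => edgeNoise G U) hmeasN
    (fun S hS => edgeNoise_law G hlf S hS)
    (S.map (Function.Embedding.subtype _)) (B.map (Function.Embedding.subtype _))
    (by intro e he; simp only [Finset.coe_map, Function.Embedding.subtype_apply, Function.Embedding.coe_subtype, Set.mem_image, SetLike.mem_coe, Subtype.exists, exists_and_right, exists_eq_right] at he; exact he.1) (Finset.map_subset_map.2 hBS)
  have h1 : ((iidLabels V).map fun U (e : G.edgeSet) => nfactor G c U e).real
      {ω | ∀ e ∈ S, (ω e = true ↔ e ∈ B)} =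
      (iidLabels V).real {U | ∀ e ∈ S.map (Function.Embedding.subtype _),
        (e ∈ limitSet (nd G c) (edgeNoise G U) ↔
          e ∈ B.map (Function.Embedding.subtype _))} := by
    rw [map_measureReal_apply hfm (measurableSet_cyl S B)]
    congr 1
    ext U
    simp only [Set.mem_preimage, Set.mem_ofPred_eq, nfactor_eq_true, Finset.mem_map,
      Function.Embedding.subtype_apply, Subtype.exists, exists_and_right, exists_eq_right,
      forall_exists_index]
    constructor
    · intro h e he hS
      refine (h ⟨e, he⟩ hS).trans ⟨fun h => ⟨he, h⟩, fun ⟨_, h⟩ => h⟩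
    · intro h e hS
      refine (h e e.2 hS).trans ⟨fun ⟨_, h⟩ => h, fun h => ⟨e.2, h⟩⟩
  rw [h1]
  refine key.congr fun n => ?_
  have h2 := measurableSet_cyl S B
  rw [← integral_indicator_one h2, integral_wust (H n) (hH.connected n) (F n) (hFH n) hc]
  have hprod : ∀ T ∈ spans (F n), ∏ j ∈ T, cE G c j = ∏ j ∈ T, c j := fun T hT =>
    Finset.prod_congr rfl fun j hj => cE_of_mem hc ((hFG j).2 ⟨n, spans_subset hT hj⟩)
  rw [Finset.sum_congr rfl hprod]
  congr 1
  rw [Finset.sum_filter]
  refine Finset.sum_congr rfl fun T hT => ?_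
  rw [hprod T hT]
  have h3 : (T ∩ S.map (Function.Embedding.subtype _) = B.map (Function.Embedding.subtype _)) ↔
      (fun e : G.edgeSet => decide ((e : Sym2 V) ∈ T)) ∈
        {ω : G.edgeSet → Bool | ∀ e ∈ S, (ω e = true ↔ e ∈ B)} := by
    simp only [Set.mem_ofPred_eq, decide_eq_true_eq]
    constructor
    · intro h e he
      have h4 : (e : Sym2 V) ∈ T ∩ S.map (Function.Embedding.subtype _) ↔
        (e : Sym2 V) ∈ B.map (Function.Embedding.subtype _) := by rw [h]
      simpa only [Finset.mem_inter, Finset.mem_map, Function.Embedding.subtype_apply,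
        Subtype.exists, exists_and_right, exists_eq_right, Subtype.coe_eta, he, Subtype.coe_prop,
        exists_const, and_true] using h4
    · intro h
      ext e
      by_cases heG : e ∈ G.edgeSet
      · have h4 := h ⟨e, heG⟩
        have h5 : (⟨e, heG⟩ : G.edgeSet) ∈ B → (⟨e, heG⟩ : G.edgeSet) ∈ S := fun h => hBS h
        simp only [Finset.mem_inter, Finset.mem_map, Function.Embedding.subtype_apply,
          Subtype.exists, exists_and_right, exists_eq_right, heG, exists_true_left]
        (clear * - heG h4 h5; tauto)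
      · simp only [Finset.mem_inter, Finset.mem_map, Function.Embedding.subtype_apply,
          Subtype.exists, exists_and_right, exists_eq_right, heG, IsEmpty.exists_iff, and_false]
  by_cases h4 : T ∩ S.map (Function.Embedding.subtype _) = B.map (Function.Embedding.subtype _)
  · rw [if_pos h4, Set.indicator_of_mem (h3.1 h4), Pi.one_apply, mul_one]
  · rw [if_neg h4, Set.indicator_of_notMem (fun h => h4 (h3.2 h)), mul_zero]

/-- Networks on an arbitrary graph: equivariance under all automorphisms. -/
theorem exists_isNetFactor {V : Type*} (G : SimpleGraph V) (hG : G.Connected)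
    (hlf : ∀ v, (G.neighborSet v).Finite) :
    ∃ Ψ : (Sym2 V → ℝ) → (V → I) → G.edgeSet → Bool, IsNetFactor G Ψ := by
  have hcV : Countable V := countable_of_locallyFinite G hG hlf
  refine ⟨fun c U e => nfactor G c U e, measurable_nfactor_graph G,
    fun c c' U h => funext fun e => nfactor_congr h U e, ?_,
    fun c hc => isNetFUSF_nfactor G hG hlf c hc⟩
  intro φ c U e
  have hmap : G.map φ.toEquiv.toEmbedding = G := by
    ext a b
    rw [SimpleGraph.map_adj]
    constructor
    · rintro ⟨u, v, huv, rfl, rfl⟩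
      exact φ.map_rel_iff.2 huv
    · intro hab
      refine ⟨φ.symm a, φ.symm b, ?_, ?_, ?_⟩
      · exact φ.symm.map_rel_iff.2 hab
      · exact φ.apply_symm_apply a
      · exact φ.apply_symm_apply b
  have h := nfactor_map φ.toEquiv G (fun f => c (f.map φ)) (fun v => U (φ v)) e
  rw [hmap] at h
  have h1 : (fun f : Sym2 V => c ((f.map φ.toEquiv.symm).map φ)) = c := by
    funext f
    rw [Sym2.map_map]
    have : (φ : V → V) ∘ φ.toEquiv.symm = id := by
      funext x
      exact φ.toEquiv.apply_symm_apply x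
    rw [this, Sym2.map_id]
    rfl
  have h2 : (fun v => U (φ v)) ∘ φ.toEquiv.symm = U := by
    funext x
    show U (φ (φ.toEquiv.symm x)) = U x
    congr 1
    exact φ.toEquiv.apply_symm_apply x
  rw [h1, h2] at h
  exact h.symm

/-- Invariant conductances on a Cayley graph. -/
theorem cayley_network {Γ : Type*} [Group Γ] (S : Set Γ) (hS : S.Finite)
    (hcl : Subgroup.closure S = ⊤) (c : Sym2 Γ → ℝ) (hc : Positive (mulCayley S) c)
    (hinv : ∀ γ : Γ, ∀ f ∈ (mulCayley S).edgeSet, c (f.map (γ * ·)) = c f) :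
    ∃ μ : Measure ((mulCayley S).edgeSet → Bool),
      IsNetFUSF (mulCayley S) c μ ∧ IsGroupFactor S μ := by
  have hconn := mulCayley_connected S hcl
  have hlf := mulCayley_locallyFinite S hS
  obtain ⟨Ψ, hΨ⟩ := exists_isNetFactor (mulCayley S) hconn hlf
  refine ⟨_, hΨ.law c hc, Ψ c, ?_, ?_, rfl⟩
  · exact hΨ.measurable.comp (measurable_const.prodMk measurable_id)
  · intro γ U e
    have h := hΨ.equivariant (leftMul S γ⁻¹) c U e
    have h1 := hΨ.network (fun f : Sym2 Γ => c (f.map (leftMul S γ⁻¹))) c
      (fun v => U (leftMul S γ⁻¹ v)) fun f hf => hinv γ⁻¹ f hf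
    rw [h1] at h
    exact h

theorem network_rule : ∃ Φ : SimpleGraph ℕ → (Sym2 ℕ → ℝ) → (ℕ → I) → Sym2 ℕ → Bool,
    IsNetworkRule Φ ∧ ∀ (G : SimpleGraph ℕ) (c : Sym2 ℕ → ℝ), G.Connected →
      (∀ v, (G.neighborSet v).Finite) → Positive G c → IsNetFUSF G c (netLaw Φ G c) :=
  ⟨fun G c U e => nfactor G c U e,
    ⟨fun e => measurable_nfactor e, fun G c c' U e h => nfactor_congr h U e,
      fun τ G c U e => nfactor_map τ G c U e⟩,
    fun G c hG hlf hc => isNetFUSF_nfactor G hG hlf c hc⟩

theorem unimodular_network (ρ : Measure (SimpleGraph ℕ × (Sym2 ℕ → ℝ) × ℕ))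
    (hρ : IsUnimodularNetwork ρ) :
    ∃ Φ : SimpleGraph ℕ → (Sym2 ℕ → ℝ) → (ℕ → I) → Sym2 ℕ → Bool, IsNetworkRule Φ ∧
      ∀ᵐ p ∂ρ, IsNetFUSF p.1 p.2.1 (netLaw Φ p.1 p.2.1) := by
  obtain ⟨Φ, h1, h2⟩ := network_rule
  refine ⟨Φ, h1, ?_⟩
  filter_upwards [hρ.graph] with p hp
  exact h2 p.1 p.2.1 hp.1 hp.2.1 hp.2.2

/-- a graph with an exhaustion has countably many vertices -/
theorem countable_of_exhaustion {V : Type*} {G : SimpleGraph V} {H : ℕ → G.Subgraph}
    (hH : IsExhaustion H) : Countable V := by
  rw [← Set.countable_univ_iff]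
  have h : (Set.univ : Set V) = ⋃ n, (H n).verts := by
    symm
    rw [Set.eq_univ_iff_forall]
    intro v
    rw [Set.mem_iUnion]
    exact hH.exists_mem v
  rw [h]
  exact Set.countable_iUnion fun n => (hH.finite n).countable

/-- unit conductances give the free uniform spanning forest of the problem -/
theorem isNetFUSF_one {V : Type*} (G : SimpleGraph V) (μ : Measure (G.edgeSet → Bool)) :
    IsNetFUSF G (fun _ => 1) μ ↔ IsFUSF G μ := by
  classical
  have h1 : Positive G fun _ => 1 := fun _ _ => one_pos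
  refine and_congr Iff.rfl (and_congr Iff.rfl (forall_congr' fun H => forall_congr' fun hH =>
    forall_congr' fun f => ?_))
  have hcV : Countable V := countable_of_exhaustion hH
  have h2 : ∀ n, ∫ ω, f ω ∂(wust (fun _ => 1) (H n)) = ∫ ω, f ω ∂(ust (H n)) := by
    intro n
    rw [integral_wust (H n) (hH.connected n) (hH.edges n) (hH.coe_edges n) h1,
      integral_ust (H n) (hH.connected n) (hH.edges n) (hH.coe_edges n)]
    simp
  simp only [h2]

end Vale.Agent.P143.Net
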